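import Mathlib
import Vale.Agent.Lib.P248.helper37.Q2Defs

open MeasureTheory Set

namespace Vale.Agent.Lib.P248.H87Q

open Vale.Agent.Lib.P248.H37 Vale.Agent.Lib.P248.H37Q

/-- `polK_lower` (leaf J9) from the leaves it uses, taken as hypotheses: `adm_sec`,
`vT_dim_zero`, `volume_posZ_ne_top`, `polK_zero`, `polK_count`, `polK_piece`. -/
theorem polK_lower_of
    (h_adm_sec : ∀ {n : ℕ} {A : Set (Fin (n + 1) → ℝ)} {z : Fin (n + 1) → ℝ}, Adm A z →
      ∀ i : Fin (n + 1), Adm (sec A i) (fun k => z (i.succAbove k)))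
    (h_vT0 : ∀ (A : Set (Fin 0 → ℝ)) (z : Fin 0 → ℝ), vT A z = 1)
    (h_ne_top : ∀ {m : ℕ} {A : Set (Fin m → ℝ)} {z : Fin m → ℝ}, Adm A z →
      volume (posZ A z) ≠ ⊤)
    (h_zero : ∀ {m : ℕ} (A : Set (Fin m → ℝ)) (z : Fin m → ℝ), polK A z 0 = posZ A z)
    (h_count : ∀ {m : ℕ} (A : Set (Fin m → ℝ)) (z : Fin m → ℝ) (k : ℕ),
      (k : ENNReal) * volume (polK A z k) = ∑ i, volume (polK A z k ∩ {y | y i < 0}))
    (h_piece : ∀ {n : ℕ} {A : Set (Fin (n + 1) → ℝ)} {z : Fin (n + 1) → ℝ}, Adm A z →
      ∀ (i : Fin (n + 1)) (k : ℕ),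
        ENNReal.ofReal (1 / (((n : ℝ) + 1) * z i)) *
            volume (polK (sec A i) (fun j => z (i.succAbove j)) k) ≤
          volume (polK A z (k + 1) ∩ {y | y i < 0})) :
    ∀ (m : ℕ) (A : Set (Fin m → ℝ)) (z : Fin m → ℝ), Adm A z → ∀ k : ℕ,
      ENNReal.ofReal ((tree m A z).Om k /
        ((k.factorial : ℝ) * (m.factorial : ℝ) * ∏ i, z i)) ≤ volume (polK A z k) := by
  intro m
  induction m with
  | zero =>
    intro A z h k
    cases k with
    | zero =>
      rw [h_zero]
      have h1 : volume (posZ A z) = ENNReal.ofReal (vT A z) :=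
        (ENNReal.ofReal_toReal (h_ne_top h)).symm
      rw [h1, h_vT0]
      simp [tree, LT.Om, LT.u]
    | succ k => simp [tree, LT.Om]
  | succ n ih =>
    intro A z h k
    have hz : ∀ i, 0 < z i := h.pos
    cases k with
    | zero =>
      rw [h_zero]
      have h1 : volume (posZ A z) = ENNReal.ofReal (vT A z) :=
        (ENNReal.ofReal_toReal (h_ne_top h)).symm
      rw [h1]
      apply le_of_eq
      congr 1
      have hzp : (∏ i, z i) ≠ 0 := (Finset.prod_pos fun i _ => hz i).ne'
      have hf : ((n + 1).factorial : ℝ) ≠ 0 := by positivity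
      simp only [tree, LT.Om, LT.u, Nat.factorial_zero, Nat.cast_one, one_mul]
      field_simp
    | succ k =>
      obtain ⟨c, hc⟩ : ∃ c : ENNReal, c = ((k + 1 : ℕ) : ENNReal) := ⟨_, rfl⟩
      have hc0 : c ≠ 0 := by rw [hc]; exact_mod_cast Nat.succ_ne_zero k
      have hct : c ≠ ⊤ := by rw [hc]; exact ENNReal.natCast_ne_top _
      have hcount := h_count A z (k + 1)
      rw [← hc] at hcount
      have hstep : ∀ i : Fin (n + 1),
          ENNReal.ofReal ((tree n (sec A i) (fun j => z (i.succAbove j))).Om k /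
            (((k + 1).factorial : ℝ) * ((n + 1).factorial : ℝ) * ∏ j, z j)) ≤
          c⁻¹ * volume (polK A z (k + 1) ∩ {y | y i < 0}) := by
        intro i
        have hP : 0 < ∏ j, z (i.succAbove j) := Finset.prod_pos fun j _ => hz _
        have hprod : ∏ j, z j = z i * ∏ j, z (i.succAbove j) := Fin.prod_univ_succAbove z i
        have hzi : 0 < z i := hz i
        have hreal : (tree n (sec A i) (fun j => z (i.succAbove j))).Om k /
            (((k + 1).factorial : ℝ) * ((n + 1).factorial : ℝ) * ∏ j, z j)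
            = (1 / ((k : ℝ) + 1)) * ((1 / (((n : ℝ) + 1) * z i)) *
              ((tree n (sec A i) (fun j => z (i.succAbove j))).Om k /
                ((k.factorial : ℝ) * (n.factorial : ℝ) * ∏ j, z (i.succAbove j)))) := by
          rw [hprod, Nat.factorial_succ, Nat.factorial_succ]
          have hk : ((k.factorial : ℕ) : ℝ) ≠ 0 := by positivity
          have hn : ((n.factorial : ℕ) : ℝ) ≠ 0 := by positivity
          push_cast
          field_simp
        have hc' : ENNReal.ofReal (1 / ((k : ℝ) + 1)) = c⁻¹ := by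
          rw [one_div, ENNReal.ofReal_inv_of_pos (by positivity), hc]
          congr 1
          rw [show ((k : ℝ) + 1) = ((k + 1 : ℕ) : ℝ) by push_cast; ring, ENNReal.ofReal_natCast]
        rw [hreal, ENNReal.ofReal_mul (by positivity), ENNReal.ofReal_mul (by positivity), hc']
        gcongr
        calc ENNReal.ofReal (1 / (((n : ℝ) + 1) * z i)) *
              ENNReal.ofReal ((tree n (sec A i) (fun j => z (i.succAbove j))).Om k /
                ((k.factorial : ℝ) * (n.factorial : ℝ) * ∏ j, z (i.succAbove j)))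
            ≤ ENNReal.ofReal (1 / (((n : ℝ) + 1) * z i)) *
              volume (polK (sec A i) (fun j => z (i.succAbove j)) k) := by
              gcongr
              exact ih _ _ (h_adm_sec h i) k
          _ ≤ volume (polK A z (k + 1) ∩ {y | y i < 0}) := h_piece h i k
      calc ENNReal.ofReal ((tree (n + 1) A z).Om (k + 1) /
            (((k + 1).factorial : ℝ) * ((n + 1).factorial : ℝ) * ∏ i, z i))
          = ENNReal.ofReal (∑ i : Fin (n + 1),
              (tree n (sec A i) (fun j => z (i.succAbove j))).Om k /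
              (((k + 1).factorial : ℝ) * ((n + 1).factorial : ℝ) * ∏ j, z j)) := by
            simp only [tree, LT.Om]
            rw [Finset.sum_div]
        _ ≤ ∑ i : Fin (n + 1), ENNReal.ofReal
              ((tree n (sec A i) (fun j => z (i.succAbove j))).Om k /
              (((k + 1).factorial : ℝ) * ((n + 1).factorial : ℝ) * ∏ j, z j)) :=
            Finset.le_sum_of_subadditive _ ENNReal.ofReal_zero.le
              (fun x y => ENNReal.ofReal_add_le) _ _
        _ ≤ ∑ i : Fin (n + 1), c⁻¹ * volume (polK A z (k + 1) ∩ {y | y i < 0}) :=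
            Finset.sum_le_sum fun i _ => hstep i
        _ = c⁻¹ * (c * volume (polK A z (k + 1))) := by rw [← Finset.mul_sum, hcount]
        _ = volume (polK A z (k + 1)) := by
            rw [← mul_assoc, ENNReal.inv_mul_cancel hc0 hct, one_mul]

end Vale.Agent.Lib.P248.H87Q
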